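import Mathlib
import Vale.Agent.Lib.P127.Lines

/-! # P127: Kakeya sets with somewhere Lipschitz position maps -/

namespace Vale.Agent.Results.P127.LipschitzLines

open MeasureTheory Set Filter Topology

/-- `ℝ^n` with the Euclidean norm -/
abbrev Space (n : ℕ) : Type := EuclideanSpace ℝ (Fin n)

/-- the sphere `S^{n-1}` of directions in `ℝ^n` -/
abbrev Directions (n : ℕ) : Type := Metric.sphere (0 : Space n) 1

/-- `Q` is not a null set for the surface measure of the sphere -/
def NotNull {n : ℕ} (Q : Set (Directions n)) : Prop := (volume : Measure (Space n)).toSphere Q ≠ 0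

/-- at each point `x` of `Q` the restriction of `b` to `Q` has a finite pointwise Lipschitz
constant: `dist (b y) (b x) ≤ L * dist y x` for all `y ∈ Q` close to `x` -/
def LipschitzAtPoints {n k : ℕ} (b : Directions n → Space k) (Q : Set (Directions n)) : Prop :=
  ∀ x ∈ Q, ∃ L : ℝ, ∀ᶠ y in 𝓝[Q] x, dist (b y) (b x) ≤ L * dist y x

/-- `a e` is the start of a unit segment of direction `e` contained in `K`, for every `e` -/
def IsPositionMap {n : ℕ} (K : Set (Space n)) (a : Directions n → Space n) : Prop :=
  ∀ e : Directions n, ∀ t ∈ Icc (0 : ℝ) 1, a e + t • (e : Space n) ∈ K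

/-- (1) If `K` is Lebesgue null and `b`, restricted to `Q`, is Lipschitz at the points of `Q`, then
for almost every direction `e` in `Q` the line `b e + ℝ e` meets `K` in a set of length zero. -/
def NullSetsMissLines : Prop :=
  ∀ (n : ℕ) (K : Set (Space n)), volume K = 0 → ∀ (b : Directions n → Space n)
    (Q : Set (Directions n)), LipschitzAtPoints b Q →
    ¬ NotNull {e | e ∈ Q ∧ 0 < volume {t : ℝ | b e + t • (e : Space n) ∈ K}}

/-- (2) A Kakeya set in `ℝ^n` has positive measure and Hausdorff dimension `n` if, for the
directions `e` in a set which is not null, one can choose points `b e` on the lines carrying its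
unit segments in a way that is Lipschitz at the points of that set. -/
def LipschitzPositionGivesFullDimension : Prop :=
  ∀ (n : ℕ) (K : Set (Space n)) (a : Directions n → Space n), IsPositionMap K a →
    ∀ (s : Directions n → ℝ) (Q : Set (Directions n)), NotNull Q →
      LipschitzAtPoints (fun e => a e + s e • (e : Space n)) Q → 0 < volume K ∧ dimH K = n

/-- (3) A Kakeya set `K` in `ℝ^n` has Hausdorff dimension at least `k` if there are a linear map
`p` to `ℝ^k` and unit vectors `s e` of `ℝ^n`, mapped by `p` to nonzero multiples of `e`, for `e` in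
a subset `Q` of the sphere of `ℝ^k` which is not null, such that the projected positions
`p (a (s e))` are Lipschitz at the points of `Q`. -/
def LipschitzProjectionGivesDimension : Prop :=
  ∀ (n k : ℕ) (K : Set (Space n)) (a : Directions n → Space n), IsPositionMap K a →
    ∀ (p : Space n →L[ℝ] Space k) (s : Directions k → Directions n) (c : Directions k → ℝ)
      (Q : Set (Directions k)), NotNull Q →
      (∀ e ∈ Q, c e ≠ 0 ∧ p (s e : Space n) = c e • (e : Space k)) →
      LipschitzAtPoints (fun e => p (a (s e))) Q → (k : ENNReal) ≤ dimH K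

theorem null_sets_miss_lines : NullSetsMissLines := by
  intro n K hK b Q hb h
  apply h
  have h1 := Vale.Agent.P127.ae_direction_null (volume : Measure (Space n)) b Q hb hK
  refine measure_mono_null ?_ h1
  rintro e ⟨he, hpos⟩
  exact ⟨he, hpos.ne'⟩

/-- a set `K` meeting lines with a Lipschitz position map in positive length is not null -/
theorem pos_of_lines {n : ℕ} {K : Set (Space n)} {b : Directions n → Space n}
    {Q : Set (Directions n)} (hQ : NotNull Q) (hb : LipschitzAtPoints b Q)
    (hpos : ∀ e ∈ Q, 0 < volume {t : ℝ | b e + t • (e : Space n) ∈ K}) : volume K ≠ 0 := by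
  intro hK
  apply null_sets_miss_lines n K hK b Q hb
  have h1 : {e | e ∈ Q ∧ 0 < volume {t : ℝ | b e + t • (e : Space n) ∈ K}} = Q := by
    ext e
    exact ⟨fun h => h.1, fun h => ⟨h, hpos e h⟩⟩
  rw [h1]
  exact hQ

/-- **Main result.** -/
theorem result : NullSetsMissLines ∧ LipschitzPositionGivesFullDimension ∧
    LipschitzProjectionGivesDimension := by
  refine ⟨null_sets_miss_lines, ?_, ?_⟩
  · intro n K a ha s Q hQ hb
    have h1 : volume K ≠ 0 := by
      apply pos_of_lines hQ hb
      intro e _
      have h2 : Icc (-s e) (1 - s e) ⊆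
          {t : ℝ | a e + s e • (e : Space n) + t • (e : Space n) ∈ K} := by
        intro t ht
        have h3 := ha e (s e + t) ⟨by linarith [ht.1], by linarith [ht.2]⟩
        rw [add_smul, ← add_assoc] at h3
        exact h3
      refine lt_of_lt_of_le ?_ (measure_mono h2)
      rw [Real.volume_Icc, ENNReal.ofReal_pos]
      linarith
    exact ⟨pos_iff_ne_zero.2 h1, Vale.Agent.P127.dimH_eq_of_volume_ne_zero h1⟩
  · intro n k K a ha p s c Q hQ hc hb
    have h1 : volume (p '' K) ≠ 0 := by
      apply pos_of_lines hQ hb
      intro e he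
      obtain ⟨hce, hpe⟩ := hc e he
      have h2 : (fun t : ℝ => t * (c e)⁻¹) ⁻¹' Icc 0 1 ⊆
          {t : ℝ | p (a (s e)) + t • (e : Space k) ∈ p '' K} := by
        intro t ht
        refine ⟨_, ha (s e) (t * (c e)⁻¹) ht, ?_⟩
        rw [map_add, map_smul, hpe, smul_smul, mul_assoc, inv_mul_cancel₀ hce, mul_one]
      refine lt_of_lt_of_le ?_ (measure_mono h2)
      rw [Real.volume_preimage_mul_right (inv_ne_zero hce), inv_inv, Real.volume_Icc]
      simp [hce]
    rw [← Vale.Agent.P127.dimH_eq_of_volume_ne_zero h1]
    exact p.lipschitz.dimH_image_le K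

end Vale.Agent.Results.P127.LipschitzLines
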